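import Vale.Agent.P196.Exchange.Main

namespace Vale.Agent.Results.P196.PolytopeExchanges

open Vale.Agent.P196.Exchange

universe u

/-- Groups of piecewise integral-affine exchanges of bounded rational-normal polyhedral sets, in
every dimension, are locally embeddable into finite groups; their finitely presented subgroups are
residually finite, so none of them is infinite and simple. -/
theorem result (d : ℕ) (Ω : Set (Fin d → ℝ)) (hΩ : RationalPolySet Ω)
    (hb : Bornology.IsBounded Ω) :
    (∀ E : Finset (exchangeGroup Ω), ∃ (Q : Type) (_ : Group Q) (_ : Finite Q)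
        (φ : exchangeGroup Ω → Q),
        Set.InjOn φ E ∧ ∀ g ∈ E, ∀ h ∈ E, g * h ∈ E → φ (g * h) = φ g * φ h) ∧
    (∀ (H : Type u) [Group H] [Group.IsFinitelyPresented H] (ψ : H →* exchangeGroup Ω) (g : H),
        ψ g ≠ 1 → ∃ K : Subgroup H, K.Normal ∧ K.FiniteIndex ∧ g ∉ K) ∧
    (∀ (H : Subgroup (exchangeGroup Ω)) [Group.IsFinitelyPresented H] [IsSimpleGroup H],
        Finite H) :=
  ⟨fun E => locally_finite_models hΩ hb E, fun _ _ _ ψ _ hg => separated hΩ hb ψ hg,
    fun H _ _ => simple_subgroup_finite hΩ hb H⟩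

end Vale.Agent.Results.P196.PolytopeExchanges
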