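import Vale.Agent.P196.Schreier

namespace Vale.Agent.Results.P196.SchreierGrowth

open Subgroup Vale.Agent.P196

universe u v

/-- Finite presentation forces thin Schreier graphs to produce finite quotients: an infinite
finitely presented simple group has only superlinearly growing nontrivial Schreier graphs, and
it does not embed in a finitely generated group acting faithfully with linearly growing orbits. -/
theorem result :
    (∀ (G : Type u) [Group G] [Group.IsFinitelyPresented G] (Ω : Type v) [MulAction G Ω]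
        (S : Set G) (x : Ω), S.Finite → closure S = ⊤ → (∃ g : G, g • x ≠ x) →
        (∀ L, ∃ B, ∀ N, ∃ n, N ≤ n ∧ (ball S x (n + L) \ ball S x n).ncard ≤ B) →
        ∃ K : Subgroup G, K.Normal ∧ K.FiniteIndex ∧ K ≠ ⊤) ∧
    (∀ (G : Type u) [Group G] [Group.IsFinitelyPresented G] [IsSimpleGroup G] [Infinite G]
        (Ω : Type v) [MulAction G Ω] (S : Set G) (x : Ω), S.Finite → closure S = ⊤ →
        (∃ g : G, g • x ≠ x) → ∀ C : ℕ, ∃ N, ∀ n, N ≤ n → C * n < (ball S x n).ncard) ∧
    (∀ (Γ : Type u) [Group Γ] (Ω : Type v) [MulAction Γ Ω] [FaithfulSMul Γ Ω] (S : Set Γ),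
        S.Finite → closure S = ⊤ →
        (∀ x : Ω, ∃ C : ℕ, ∀ n, 0 < n → (ball S x n).ncard ≤ C * n) →
        ∀ (H : Subgroup Γ) [Group.IsFinitelyPresented H] [IsSimpleGroup H], Finite H) :=
  ⟨fun _ _ _ _ _ _ x hS hgen hx h => hasFiniteQuotient_of_thin hS hgen x hx h,
    fun _ _ _ _ _ _ _ _ x hS hgen hx C => superlinear hS hgen x hx C,
    fun _ _ _ _ _ _ hS hgen h H _ _ => subgroups_finite hS hgen h H⟩

end Vale.Agent.Results.P196.SchreierGrowth
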